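import Vale.Agent.P219.CH.Full.Defs

/-!
P219 full Q1: the entire functions `ser j` and the smooth form of `sinh √x / √x`, `cosh √x`.
-/

namespace Vale.Agent.P219.CH.Full

open Filter Topology Set
open scoped ContDiff

noncomputable section

/-- The entire function `∑ yᵏ / (2 k + j)!`. -/
def ser (j : ℕ) (y : ℝ) : ℝ :=
  FormalMultilinearSeries.ofScalarsSum (fun k => ((Nat.factorial (2 * k + j) : ℕ) : ℝ)⁻¹) y

theorem ser_radius (j : ℕ) :
    (FormalMultilinearSeries.ofScalars ℝ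
      (fun k => ((Nat.factorial (2 * k + j) : ℕ) : ℝ)⁻¹)).radius = ⊤ := by
  refine FormalMultilinearSeries.ofScalars_radius_eq_top_of_tendsto ℝ _
    (Eventually.of_forall fun k => by positivity) ?_
  refine squeeze_zero (fun k => by positivity) (fun k => ?_)
    tendsto_one_div_add_atTop_nhds_zero_nat
  have hpos : (0 : ℝ) < ((Nat.factorial (2 * k + j) : ℕ) : ℝ) := by positivity
  rw [Real.norm_of_nonneg (by positivity), Real.norm_of_nonneg (by positivity),
    show 2 * k.succ + j = (2 * k + j + 1) + 1 by omega, Nat.factorial_succ, Nat.factorial_succ]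
  push_cast
  set F := ((Nat.factorial (2 * k + j) : ℕ) : ℝ)
  rw [show ((2 * (k : ℝ) + j + 1 + 1) * ((2 * k + j + 1) * F))⁻¹ / F⁻¹ =
    1 / ((2 * (k : ℝ) + j + 1 + 1) * (2 * k + j + 1)) by field_simp]
  refine one_div_le_one_div_of_le (by positivity) ?_
  nlinarith [Nat.cast_nonneg (α := ℝ) k, Nat.cast_nonneg (α := ℝ) j]

theorem ser_hasSum (j : ℕ) (y : ℝ) :
    HasSum (fun k => y ^ k / ((Nat.factorial (2 * k + j) : ℕ) : ℝ)) (ser j y) := by
  have h := (FormalMultilinearSeries.ofScalars ℝ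
    (fun k => ((Nat.factorial (2 * k + j) : ℕ) : ℝ)⁻¹)).hasSum (x := y)
    (by rw [ser_radius j]; simp)
  rw [FormalMultilinearSeries.ofScalars_apply_eq'] at h
  simp only [smul_eq_mul, inv_mul_eq_div] at h
  exact h

theorem ser_analytic (j : ℕ) : AnalyticOnNhd ℝ (ser j) univ := by
  set p := FormalMultilinearSeries.ofScalars ℝ
    (fun k => ((Nat.factorial (2 * k + j) : ℕ) : ℝ)⁻¹)
  have hr : p.radius = ⊤ := ser_radius j
  have h := (p.hasFPowerSeriesOnBall (by rw [hr]; exact ENNReal.zero_lt_top)).analyticOnNhd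
  rw [hr] at h
  intro y _
  exact h y (by simp)

theorem contDiff_ser (j : ℕ) {N : WithTop ℕ∞} : ContDiff ℝ N (ser j) :=
  (contDiffOn_univ.1 ((ser_analytic j).contDiffOn uniqueDiffOn_univ))

theorem continuous_ser (j : ℕ) : Continuous (ser j) := (contDiff_ser j (N := 0)).continuous

theorem ser_at_zero (j : ℕ) : ser j 0 = 1 / (Nat.factorial j : ℝ) := by
  simp [ser]

theorem ser_succ (j : ℕ) (y : ℝ) :
    ser j y = 1 / (Nat.factorial j : ℝ) + y * ser (j + 2) y := by
  refine (ser_hasSum j y).unique ?_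
  refine (hasSum_nat_add_iff' 1).1 ?_
  simp only [Finset.sum_range_one, pow_zero, mul_zero, zero_add, add_sub_cancel_left]
  refine ((ser_hasSum (j + 2) y).mul_left y).congr_fun fun k => ?_
  rw [show 2 * (k + 1) + j = 2 * k + (j + 2) by omega, pow_succ]
  ring

theorem ser_zero_sq (x : ℝ) : ser 0 (x ^ 2) = Real.cosh x := by
  refine (ser_hasSum 0 (x ^ 2)).unique ((Real.hasSum_cosh x).congr_fun fun k => ?_)
  simp [pow_mul]

theorem mul_ser_one_sq (x : ℝ) : x * ser 1 (x ^ 2) = Real.sinh x := by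
  refine ((ser_hasSum 1 (x ^ 2)).mul_left x).unique ((Real.hasSum_sinh x).congr_fun fun k => ?_)
  rw [← pow_mul, pow_succ]
  ring

theorem ser_zero_eq {y : ℝ} (hy : 0 ≤ y) : ser 0 y = Real.cosh (√y) := by
  rw [← ser_zero_sq, Real.sq_sqrt hy]

theorem ser_one_eq {y : ℝ} (hy : 0 < y) : ser 1 y = Real.sinh (√y) / √y := by
  rw [eq_div_iff (Real.sqrt_pos.2 hy).ne', mul_comm, ← mul_ser_one_sq, Real.sq_sqrt hy.le]

theorem ser_ge (j : ℕ) {y : ℝ} (hy : 0 ≤ y) : 1 / (Nat.factorial j : ℝ) ≤ ser j y := by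
  rw [ser_succ]
  exact le_add_of_nonneg_right
    (mul_nonneg hy ((ser_hasSum (j + 2) y).nonneg fun k => by positivity))

theorem ser_pos (j : ℕ) {y : ℝ} (hy : 0 ≤ y) : 0 < ser j y :=
  lt_of_lt_of_le (by positivity) (ser_ge j hy)

theorem hasDerivAt_ser_zero {y : ℝ} (hy : 0 ≤ y) : HasDerivAt (ser 0) (ser 1 y / 2) y := by
  have hc : Continuous (deriv (ser 0)) := (contDiff_ser 0 (N := 1)).continuous_deriv le_rfl
  have hd : Differentiable ℝ (ser 0) := (contDiff_ser 0 (N := 1)).differentiable (by simp)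
  suffices EqOn (deriv (ser 0)) (fun y => ser 1 y / 2) (Ici 0) by
    rw [← show deriv (ser 0) y = ser 1 y / 2 from this hy]
    exact (hd y).hasDerivAt
  have hpos : EqOn (deriv (ser 0)) (fun y => ser 1 y / 2) (Ioi 0) := by
    intro z (hz : 0 < z)
    have hEq : ser 0 =ᶠ[𝓝 z] fun z => Real.cosh (√z) := by
      filter_upwards [eventually_gt_nhds hz] with w hw using ser_zero_eq hw.le
    rw [hEq.deriv_eq, ((Real.hasDerivAt_sqrt hz.ne').cosh).deriv]
    simp only [ser_one_eq hz]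
    field_simp
  exact closure_Ioi (0 : ℝ) ▸ hpos.closure hc (continuous_ser 1 |>.div_const 2)

theorem ser_pythagoras {y : ℝ} (hy : 0 ≤ y) : ser 0 y ^ 2 = 1 + y * ser 1 y ^ 2 := by
  have h1 := mul_ser_one_sq (√y)
  rw [Real.sq_sqrt hy] at h1
  have h2 : y * ser 1 y ^ 2 = Real.sinh (√y) ^ 2 := by
    rw [← h1, mul_pow, Real.sq_sqrt hy]
  rw [ser_zero_eq hy, h2, Real.cosh_sq]
  ring

/-- The double angle formula. -/
theorem ser_zero_half {y : ℝ} (hy : 0 ≤ y) :
    ser 0 y = 1 + y / 2 * ser 1 (y / 4) ^ 2 := by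
  have h1 := mul_ser_one_sq (√y / 2)
  rw [div_pow, Real.sq_sqrt hy, show (2 : ℝ) ^ 2 = 4 by norm_num] at h1
  have h2 : y / 4 * ser 1 (y / 4) ^ 2 = Real.sinh (√y / 2) ^ 2 := by
    rw [← h1, mul_pow, div_pow, Real.sq_sqrt hy]
    norm_num
  rw [ser_zero_eq hy, show √y = 2 * (√y / 2) by ring, Real.cosh_two_mul, Real.cosh_sq, ← h2]
  ring

/-! ### `sd` and `phiR` -/

theorem sd_eq_ser {x : ℝ} (hx : 0 ≤ x) : sd x = ser 1 x := by
  rcases eq_or_lt_of_le hx with rfl | hx'
  · simp [sd, ser_at_zero]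
  · rw [sd, if_pos hx', ser_one_eq hx']

theorem sd_zero : sd 0 = 1 := by simp [sd]

theorem one_le_sd {x : ℝ} (hx : 0 ≤ x) : 1 ≤ sd x := by
  simpa [sd_eq_ser hx] using ser_ge 1 hx

theorem sd_pos {x : ℝ} (hx : 0 ≤ x) : 0 < sd x := one_pos.trans_le (one_le_sd hx)

theorem contDiff_sd : ContDiff ℝ 1 sd := by
  have hS : ContDiff ℝ 1 (ser 1) := contDiff_ser 1
  have h0 : HasDerivAt (ser 1) (1 / 6) 0 := by
    have h := (((hasDerivAt_id' (0 : ℝ)).mul
      ((contDiff_ser 3 (N := 1)).differentiable (by simp) 0).hasDerivAt)).const_add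
      (1 / ((Nat.factorial 1 : ℕ) : ℝ))
    refine (h.congr_of_eventuallyEq (Eventually.of_forall fun y => ?_)).congr_deriv ?_
    · simpa using ser_succ 1 y
    · simp [ser_at_zero, Nat.factorial]
  have hd : ∀ y, HasDerivAt sd (deriv (ser 1) (max y 0)) y := by
    intro y
    rcases lt_trichotomy y 0 with hy | rfl | hy
    · rw [max_eq_right hy.le, h0.deriv]
      refine (((hasDerivAt_id' y).div_const 6).const_add 1).congr_of_eventuallyEq ?_
      filter_upwards [eventually_lt_nhds hy] with z hz using if_neg (not_lt.2 hz.le)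
    · rw [max_self, h0.deriv, ← hasDerivWithinAt_univ, ← Iic_union_Ici (a := (0 : ℝ))]
      refine HasDerivWithinAt.union ?_ ?_
      · exact ((((hasDerivAt_id' (0 : ℝ)).div_const 6).const_add 1).hasDerivWithinAt.congr
          (fun z hz => if_neg (not_lt.2 hz)) (by simp [sd]))
      · exact h0.hasDerivWithinAt.congr (fun z hz => sd_eq_ser hz) (sd_eq_ser le_rfl)
    · rw [max_eq_left hy.le]
      refine ((hS.differentiable (by simp) y).hasDerivAt).congr_of_eventuallyEq ?_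
      filter_upwards [eventually_ge_nhds hy] with z hz using sd_eq_ser hz
  rw [contDiff_one_iff_deriv]
  refine ⟨fun y => (hd y).differentiableAt, ?_⟩
  rw [funext fun y => (hd y).deriv]
  exact (hS.continuous_deriv le_rfl).comp (continuous_id.max continuous_const)

theorem contDiff_phiR (e : ℝ) : ContDiff ℝ 1 (phiR e) :=
  (contDiff_id.div_const 2).mul
    ((contDiff_sd.comp ((contDiff_const.mul contDiff_id).div_const 4)).pow 2)

theorem one_add_mul_phiR {e x : ℝ} (he : 0 ≤ e) (hx : 0 ≤ x) :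
    1 + e * phiR e x = ser 0 (e * x) := by
  have h := mul_nonneg he hx
  rw [phiR, sd_eq_ser (by positivity), ser_zero_half h]
  ring

theorem one_add_mul_phiR_eq_cosh {e x : ℝ} (he : 0 ≤ e) (hx : 0 ≤ x) :
    1 + e * phiR e x = Real.cosh (√(e * x)) := by
  rw [one_add_mul_phiR he hx, ser_zero_eq (mul_nonneg he hx)]

theorem phiR_eq {e : ℝ} (he : e ≠ 0) (he' : 0 ≤ e) {x : ℝ} (hx : 0 ≤ x) :
    phiR e x = (ser 0 (e * x) - 1) / e := by
  rw [← one_add_mul_phiR he' hx, eq_div_iff he]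
  ring

theorem phiR_flat (x : ℝ) : phiR 0 x = x / 2 := by simp [phiR, sd_zero]

theorem half_le_phiR {e x : ℝ} (he : 0 ≤ e) (hx : 0 ≤ x) : x / 2 ≤ phiR e x := by
  refine le_mul_of_one_le_right (by positivity) ?_
  exact one_le_pow₀ (one_le_sd (by positivity))

theorem phiR_nonneg {e x : ℝ} (he : 0 ≤ e) (hx : 0 ≤ x) : 0 ≤ phiR e x :=
  le_trans (by positivity) (half_le_phiR he hx)

theorem hasDerivAt_phiR {e x : ℝ} (he : 0 ≤ e) (hx : 0 ≤ x) :
    HasDerivAt (phiR e) (sd (e * x) / 2) x := by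
  rcases eq_or_lt_of_le hx with rfl | hx'
  · have h := ((hasDerivAt_id' (0 : ℝ)).div_const 2).mul
      ((((contDiff_sd.differentiable (by simp)).comp
        ((differentiable_id.const_mul e).div_const 4)).pow 2) (0 : ℝ)).hasDerivAt
    refine (h.congr_deriv ?_).congr_of_eventuallyEq (Eventually.of_forall fun y => ?_)
    · simp [sd_zero]
    · simp [phiR]
  rcases eq_or_lt_of_le he with rfl | he'
  · rw [funext phiR_flat]
    simpa [sd_zero] using (hasDerivAt_id' x).div_const (2 : ℝ)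
  · have h := (((hasDerivAt_ser_zero (mul_nonneg he hx)).comp x
      ((hasDerivAt_id' x).const_mul e)).sub_const 1).div_const e
    refine (h.congr_deriv ?_).congr_of_eventuallyEq ?_
    · rw [sd_eq_ser (mul_nonneg he hx)]
      field_simp
    · filter_upwards [eventually_ge_nhds hx'] with y hy using phiR_eq he'.ne' he hy

theorem phiR_quadratic {e x : ℝ} (he : 0 ≤ e) (hx : 0 ≤ x) :
    2 * phiR e x + e * phiR e x ^ 2 = x * sd (e * x) ^ 2 := by
  rcases eq_or_lt_of_le he with rfl | he'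
  · simp [phiR_flat, sd_zero]
    ring
  · have h := ser_pythagoras (mul_nonneg he hx)
    rw [← one_add_mul_phiR he hx] at h
    rw [sd_eq_ser (mul_nonneg he hx)]
    refine mul_left_cancel₀ he'.ne' ?_
    linear_combination h

/-! ### `sn` and `cs` -/

theorem cs_eq_ser {e : ℝ} (he : 0 ≤ e) (r : ℝ) : cs e r = ser 0 (e * r ^ 2) := by
  rw [cs, ← ser_zero_sq, mul_pow, Real.sq_sqrt he]

theorem sn_eq_ser {e : ℝ} (he : 0 ≤ e) (r : ℝ) : sn e r = r * ser 1 (e * r ^ 2) := by
  rw [sn, sd_eq_ser (by positivity)]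

theorem sn_flat (r : ℝ) : sn 0 r = r := by simp [sn, sd_zero]

theorem sn_eq_sinh {e : ℝ} (he : 0 < e) (r : ℝ) : sn e r = Real.sinh (√e * r) / √e := by
  rw [eq_div_iff (Real.sqrt_pos.2 he).ne', ← mul_ser_one_sq, sn_eq_ser he.le, mul_pow,
    Real.sq_sqrt he.le]
  ring

end

end Vale.Agent.P219.CH.Full
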