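import Vale.Agent.P219.CH.Full.Model.Series
import Vale.Agent.P219.CH.Core.MinTools

/-!
P219 full Q1: the isoperimetric profile of the space form of curvature `-e`: continuous,
monotone, concave, with derivative the mean curvature `(n - 1) cs / sn` of the sphere.
-/

namespace Vale.Agent.P219.CH.Full

open MeasureTheory Filter Topology Set
open scoped ContDiff

noncomputable section

variable {n : ℕ} {e : ℝ}

theorem sn_zero (e : ℝ) : sn e 0 = 0 := by simp [sn]

theorem cs_pos (e r : ℝ) : 0 < cs e r := Real.cosh_pos _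

theorem hasStrictDerivAt_sn (he : 0 ≤ e) (r : ℝ) :
    HasStrictDerivAt (sn e) (cs e r) r := by
  rcases eq_or_lt_of_le he with rfl | he'
  · have : sn 0 = fun r => r := funext sn_flat
    rw [this]
    exact (hasStrictDerivAt_id r).congr_deriv (by simp [cs])
  · have : sn e = fun r => Real.sinh (√e * r) / √e := funext (sn_eq_sinh he')
    rw [this]
    refine ((((hasStrictDerivAt_id r).const_mul (√e)).sinh).div_const (√e)).congr_deriv ?_
    have := (Real.sqrt_pos.2 he').ne'
    simp only [id, mul_one, cs]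
    field_simp

theorem hasDerivAt_sn (he : 0 ≤ e) (r : ℝ) : HasDerivAt (sn e) (cs e r) r :=
  (hasStrictDerivAt_sn he r).hasDerivAt

theorem continuous_sn (he : 0 ≤ e) : Continuous (sn e) :=
  continuous_iff_continuousAt.2 fun r => (hasDerivAt_sn he r).continuousAt

theorem continuous_cs (e : ℝ) : Continuous (cs e) := by
  unfold cs
  fun_prop

theorem self_le_sn (he : 0 ≤ e) {r : ℝ} (hr : 0 ≤ r) : r ≤ sn e r := by
  exact le_mul_of_one_le_right hr (one_le_sd (by positivity))

theorem sn_pos (he : 0 ≤ e) {r : ℝ} (hr : 0 < r) : 0 < sn e r :=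
  lt_of_lt_of_le hr (self_le_sn he hr.le)

theorem sn_nonneg (he : 0 ≤ e) {r : ℝ} (hr : 0 ≤ r) : 0 ≤ sn e r :=
  le_trans hr (self_le_sn he hr)

theorem cs_sq (he : 0 ≤ e) (r : ℝ) : cs e r ^ 2 = 1 + e * sn e r ^ 2 := by
  rw [cs_eq_ser he, sn_eq_ser he, ser_pythagoras (by positivity)]
  ring

theorem strictMono_sn (he : 0 ≤ e) : StrictMono (sn e) :=
  strictMono_of_deriv_pos fun r => by
    rw [(hasDerivAt_sn he r).deriv]
    exact cs_pos e r

/-- The mean curvature `(n - 1) cs / sn` of the sphere of radius `r`. -/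
def meanH (n : ℕ) (e r : ℝ) : ℝ := ((n : ℝ) - 1) * (cs e r / sn e r)

theorem one_sub_cast_pos (hn : 2 ≤ n) : 0 < (n : ℝ) - 1 := by
  have : (2 : ℝ) ≤ n := by exact_mod_cast hn
  linarith

theorem meanH_pos (hn : 2 ≤ n) (he : 0 ≤ e) {r : ℝ} (hr : 0 < r) : 0 < meanH n e r :=
  mul_pos (one_sub_cast_pos hn) (div_pos (cs_pos e r) (sn_pos he hr))

theorem meanH_sq (he : 0 ≤ e) {r : ℝ} (hr : 0 < r) :
    meanH n e r ^ 2 - e * ((n : ℝ) - 1) ^ 2 = ((n : ℝ) - 1) ^ 2 / sn e r ^ 2 := by
  have h := (sn_pos he hr).ne'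
  rw [meanH, mul_pow, div_pow, cs_sq he]
  field_simp
  ring

theorem sqrt_lt_meanH (hn : 2 ≤ n) (he : 0 ≤ e) {r : ℝ} (hr : 0 < r) :
    ((n : ℝ) - 1) * √e < meanH n e r := by
  refine mul_lt_mul_of_pos_left ?_ (one_sub_cast_pos hn)
  have hs := sn_pos he hr
  rw [lt_div_iff₀ hs]
  refine lt_of_pow_lt_pow_left₀ 2 (cs_pos e r).le ?_
  rw [mul_pow, Real.sq_sqrt he, cs_sq he]
  linarith

theorem meanH_antitone (hn : 2 ≤ n) (he : 0 ≤ e) {r s : ℝ} (hr : 0 < r) (h : r ≤ s) :
    meanH n e s ≤ meanH n e r := by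
  refine (sq_le_sq₀ (meanH_pos hn he (hr.trans_le h)).le (meanH_pos hn he hr).le).1 ?_
  have h1 := meanH_sq (n := n) he hr
  have h2 := meanH_sq (n := n) he (hr.trans_le h)
  have : ((n : ℝ) - 1) ^ 2 / sn e s ^ 2 ≤ ((n : ℝ) - 1) ^ 2 / sn e r ^ 2 := by
    have hp := sn_pos he hr
    have hm := (strictMono_sn he).monotone h
    gcongr
  linarith

/-- The area through the mean curvature. -/
theorem areaM_eq_rpow (hn : 2 ≤ n) (he : 0 ≤ e) {r : ℝ} (hr : 0 < r) :
    areaM n e r = n * omega n * (((n : ℝ) - 1) ^ 2 /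
      (meanH n e r ^ 2 - e * ((n : ℝ) - 1) ^ 2)) ^ (((n : ℝ) - 1) / 2) := by
  have hm := one_sub_cast_pos hn
  have hs := sn_pos he hr
  rw [meanH_sq he hr, div_div_cancel₀ (by positivity), areaM,
    ← Real.rpow_natCast (sn e r) 2, ← Real.rpow_mul hs.le,
    show ((2 : ℕ) : ℝ) * (((n : ℝ) - 1) / 2) = ((n - 1 : ℕ) : ℝ) by
      rw [Nat.cast_sub (by omega : 1 ≤ n)]; push_cast; ring,
    Real.rpow_natCast]

theorem hasStrictDerivAt_areaM (he : 0 ≤ e) (r : ℝ) :
    HasStrictDerivAt (areaM n e)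
      (n * omega n * (((n - 1 : ℕ) : ℝ) * sn e r ^ (n - 1 - 1) * cs e r)) r :=
  (((hasStrictDerivAt_sn he r).fun_pow (n - 1))).const_mul _

theorem continuous_areaM (he : 0 ≤ e) : Continuous (areaM n e) :=
  continuous_const.mul ((continuous_sn he).pow _)

theorem hasStrictDerivAt_volM (he : 0 ≤ e) (r : ℝ) :
    HasStrictDerivAt (volM n e) (areaM n e r) r := by
  have hc : Continuous (areaM n e) := continuous_areaM he
  exact intervalIntegral.integral_hasStrictDerivAt_right (hc.intervalIntegrable 0 r)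
    (hc.stronglyMeasurableAtFilter _ _) hc.continuousAt

theorem continuous_volM (he : 0 ≤ e) : Continuous (volM n e) :=
  continuous_iff_continuousAt.2 fun r => (hasStrictDerivAt_volM he r).hasDerivAt.continuousAt

theorem volM_zero (n : ℕ) (e : ℝ) : volM n e 0 = 0 := by simp [volM]

theorem areaM_zero (hn : 2 ≤ n) (e : ℝ) : areaM n e 0 = 0 := by
  simp [areaM, sn_zero, zero_pow (show n - 1 ≠ 0 by omega)]

theorem areaM_pos (hn : 2 ≤ n) (he : 0 ≤ e) {r : ℝ} (hr : 0 < r) : 0 < areaM n e r := by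
  have := Core.Mini.omega_pos n
  have := sn_pos he hr
  have : (0 : ℝ) < n := by exact_mod_cast (by omega : 0 < n)
  unfold areaM
  positivity

theorem strictMonoOn_areaM (hn : 2 ≤ n) (he : 0 ≤ e) :
    StrictMonoOn (areaM n e) (Ici 0) := by
  intro r hr s _ hrs
  have := Core.Mini.omega_pos n
  have : (0 : ℝ) < n := by exact_mod_cast (by omega : 0 < n)
  exact mul_lt_mul_of_pos_left (pow_lt_pow_left₀ (strictMono_sn he hrs)
    (sn_nonneg he hr) (by omega)) (by positivity)

theorem strictMonoOn_volM (hn : 2 ≤ n) (he : 0 ≤ e) :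
    StrictMonoOn (volM n e) (Ici 0) := by
  refine strictMonoOn_of_deriv_pos (convex_Ici 0) (continuous_volM he).continuousOn ?_
  intro r hr
  rw [interior_Ici, mem_Ioi] at hr
  rw [(hasStrictDerivAt_volM he r).hasDerivAt.deriv]
  exact areaM_pos hn he hr

theorem omega_mul_pow_le_volM (hn : 1 ≤ n) (he : 0 ≤ e) {r : ℝ} (hr : 0 ≤ r) :
    omega n * r ^ n ≤ volM n e r := by
  have hw := (Core.Mini.omega_pos n).le
  have h : ∫ t in (0 : ℝ)..r, t ^ (n - 1) ≤ ∫ t in (0 : ℝ)..r, sn e t ^ (n - 1) :=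
    intervalIntegral.integral_mono_on hr ((continuous_pow _).intervalIntegrable 0 r)
      (((continuous_sn he).pow _).intervalIntegrable 0 r)
      fun t ht => pow_le_pow_left₀ ht.1 (self_le_sn he ht.1) _
  rw [volM]
  simp only [areaM, intervalIntegral.integral_const_mul]
  refine le_trans (le_of_eq ?_) (mul_le_mul_of_nonneg_left h (by positivity))
  rw [integral_pow, show n - 1 + 1 = n by omega, Nat.cast_sub hn, zero_pow (by omega)]
  have hn0 : (n : ℝ) ≠ 0 := by exact_mod_cast (by omega : n ≠ 0)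
  push_cast
  simp only [sub_zero, sub_add_cancel]
  field_simp

theorem exists_volM_eq (hn : 1 ≤ n) (he : 0 ≤ e) {V : ℝ} (hV : 0 ≤ V) :
    ∃ r, 0 ≤ r ∧ volM n e r = V := by
  obtain ⟨R, hR, hRV⟩ : ∃ R, 0 ≤ R ∧ V ≤ volM n e R := by
    have hw := Core.Mini.omega_pos n
    refine ⟨max 1 (V / omega n), le_max_of_le_left zero_le_one,
      le_trans ?_ (omega_mul_pow_le_volM hn he (le_max_of_le_left zero_le_one))⟩
    calc V = omega n * (V / omega n) := by field_simp
      _ ≤ omega n * max 1 (V / omega n) ^ n := by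
        refine mul_le_mul_of_nonneg_left (le_trans (le_max_right 1 _) ?_) hw.le
        exact le_self_pow₀ (le_max_left _ _) (by omega)
  obtain ⟨r, hr, h⟩ := intermediate_value_Icc hR (continuous_volM he).continuousOn
    (show V ∈ Icc (volM n e 0) (volM n e R) from ⟨by rw [volM_zero]; exact hV, hRV⟩)
  exact ⟨r, hr.1, h⟩

theorem radM_of_nonpos {V : ℝ} (hV : V ≤ 0) :
    radM n e V = 0 := by
  refine IsLeast.csInf_eq ⟨⟨le_rfl, by rwa [volM_zero]⟩, fun r hr => hr.1⟩

theorem radM_volM (hn : 2 ≤ n) (he : 0 ≤ e) {r : ℝ} (hr : 0 ≤ r) :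
    radM n e (volM n e r) = r :=
  IsLeast.csInf_eq ⟨⟨hr, le_rfl⟩, fun _ hs =>
    ((strictMonoOn_volM hn he).le_iff_le hr hs.1).1 hs.2⟩

theorem radM_nonneg (n : ℕ) (e V : ℝ) : 0 ≤ radM n e V :=
  Real.sInf_nonneg fun _ h => h.1

theorem volM_radM (hn : 2 ≤ n) (he : 0 ≤ e) {V : ℝ} (hV : 0 ≤ V) :
    volM n e (radM n e V) = V := by
  obtain ⟨r, hr, rfl⟩ := exists_volM_eq (by omega : 1 ≤ n) he hV
  rw [radM_volM hn he hr]

theorem radM_pos (hn : 2 ≤ n) (he : 0 ≤ e) {V : ℝ} (hV : 0 < V) :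
    0 < radM n e V := by
  refine (radM_nonneg n e V).lt_of_ne fun h => hV.ne ?_
  have h2 := volM_radM hn he hV.le
  rwa [← h, volM_zero] at h2

theorem radM_mono (hn : 2 ≤ n) (he : 0 ≤ e) : Monotone (radM n e) := by
  intro V W h
  rcases le_total V 0 with hV | hV
  · rw [radM_of_nonpos hV]
    exact radM_nonneg n e W
  · obtain ⟨r, hr, rfl⟩ := exists_volM_eq (by omega : 1 ≤ n) he hV
    obtain ⟨s, hs, rfl⟩ := exists_volM_eq (by omega : 1 ≤ n) he (hV.trans h)
    rw [radM_volM hn he hr, radM_volM hn he hs]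
    exact ((strictMonoOn_volM hn he).le_iff_le hr hs).1 h

theorem continuous_radM (hn : 2 ≤ n) (he : 0 ≤ e) : Continuous (radM n e) := by
  have hg : Continuous fun V => radM n e V + min V 0 := by
    refine ((radM_mono hn he).add (monotone_id.min monotone_const)).continuous_of_surjective
      fun y => ?_
    rcases le_total 0 y with hy | hy
    · refine ⟨volM n e y, ?_⟩
      have h0 : 0 ≤ volM n e y := by
        rw [← volM_zero n e]
        exact (strictMonoOn_volM hn he).monotoneOn self_mem_Ici hy hy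
      simp [radM_volM hn he hy, min_eq_right h0]
    · exact ⟨y, by simp [radM_of_nonpos hy, min_eq_left hy]⟩
  have h := hg.sub ((continuous_id (X := ℝ)).min continuous_const : Continuous fun V : ℝ => min V 0)
  exact h.congr fun V => add_sub_cancel_right _ _

theorem continuous_profE (hn : 2 ≤ n) (he : 0 ≤ e) : Continuous (profE n e) :=
  (continuous_areaM he).comp (continuous_radM hn he)

theorem profE_volM (hn : 2 ≤ n) (he : 0 ≤ e) {r : ℝ} (hr : 0 ≤ r) :
    profE n e (volM n e r) = areaM n e r := by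
  rw [profE, radM_volM hn he hr]

theorem profE_of_nonpos (hn : 2 ≤ n) {V : ℝ} (hV : V ≤ 0) :
    profE n e V = 0 := by
  rw [profE, radM_of_nonpos hV, areaM_zero hn]

theorem profE_zero (hn : 2 ≤ n) : profE n e 0 = 0 :=
  profE_of_nonpos hn le_rfl

theorem profE_pos (hn : 2 ≤ n) (he : 0 ≤ e) {V : ℝ} (hV : 0 < V) :
    0 < profE n e V :=
  areaM_pos hn he (radM_pos hn he hV)

theorem profE_nonneg (hn : 2 ≤ n) (he : 0 ≤ e) (V : ℝ) : 0 ≤ profE n e V := by
  rcases le_or_gt V 0 with hV | hV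
  · rw [profE_of_nonpos hn hV]
  · exact (profE_pos hn he hV).le

theorem profE_mono (hn : 2 ≤ n) (he : 0 ≤ e) : Monotone (profE n e) :=
  fun V W h => (strictMonoOn_areaM hn he).monotoneOn (radM_nonneg n e V)
    (radM_nonneg n e W) (radM_mono hn he h)

theorem strictMonoOn_profE (hn : 2 ≤ n) (he : 0 ≤ e) :
    StrictMonoOn (profE n e) (Ici 0) := by
  intro V hV W hW h
  refine strictMonoOn_areaM hn he (radM_nonneg n e V) (radM_nonneg n e W) ?_
  refine (radM_mono hn he h.le).lt_of_ne fun hEq => h.ne ?_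
  rw [← volM_radM hn he hV, hEq, volM_radM hn he hW]

theorem hasStrictDerivAt_profE (hn : 2 ≤ n) (he : 0 ≤ e) {V : ℝ} (hV : 0 < V) :
    HasStrictDerivAt (profE n e) (meanH n e (radM n e V)) V := by
  set r := radM n e V with hrdef
  have hr : 0 < r := radM_pos hn he hV
  have hA := areaM_pos hn he hr
  have hinv : HasStrictDerivAt (radM n e) (areaM n e r)⁻¹ V :=
    HasStrictDerivAt.of_local_left_inverse (continuous_radM hn he).continuousAt
      (hasStrictDerivAt_volM he r) hA.ne'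
      (by filter_upwards [eventually_ge_nhds hV] with W hW using volM_radM hn he hW)
  refine ((hasStrictDerivAt_areaM he r).comp V hinv).congr_deriv ?_
  obtain ⟨k, rfl⟩ : ∃ k, n = k + 2 := ⟨n - 2, by omega⟩
  have hw := (Core.Mini.omega_pos (k + 2)).ne'
  have hs := (sn_pos he hr).ne'
  simp only [areaM, meanH, show k + 2 - 1 = k + 1 by omega, show k + 1 - 1 = k by omega]
  push_cast
  field_simp
  ring

theorem deriv_profE (hn : 2 ≤ n) (he : 0 ≤ e) {V : ℝ} (hV : 0 < V) :
    deriv (profE n e) V = meanH n e (radM n e V) :=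
  (hasStrictDerivAt_profE hn he hV).hasDerivAt.deriv

theorem deriv_profE_antitone (hn : 2 ≤ n) (he : 0 ≤ e) :
    AntitoneOn (deriv (profE n e)) (Ioi 0) := fun V hV W hW h => by
  rw [deriv_profE hn he hV, deriv_profE hn he hW]
  exact meanH_antitone hn he (radM_pos hn he hV) (radM_mono hn he h)

theorem sqrt_lt_deriv_profE (hn : 2 ≤ n) (he : 0 ≤ e) {V : ℝ} (hV : 0 < V) :
    ((n : ℝ) - 1) * √e < deriv (profE n e) V := by
  rw [deriv_profE hn he hV]
  exact sqrt_lt_meanH hn he (radM_pos hn he hV)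

theorem continuousOn_deriv_profE (hn : 2 ≤ n) (he : 0 ≤ e) :
    ContinuousOn (deriv (profE n e)) (Ioi 0) := by
  refine ContinuousOn.congr ?_ fun V hV => deriv_profE hn he hV
  refine continuousOn_const.mul (((continuous_cs e).comp
    (continuous_radM hn he)).continuousOn.div
    ((continuous_sn he).comp (continuous_radM hn he)).continuousOn
    fun V hV => (sn_pos he (radM_pos hn he hV)).ne')

theorem concaveOn_profE (hn : 2 ≤ n) (he : 0 ≤ e) :
    ConcaveOn ℝ (Ici 0) (profE n e) := by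
  refine AntitoneOn.concaveOn_of_deriv (convex_Ici 0)
    (continuous_profE hn he).continuousOn ?_ ?_
  · rw [interior_Ici]
    exact fun V hV =>
      (hasStrictDerivAt_profE hn he hV).hasDerivAt.differentiableAt.differentiableWithinAt
  · rw [interior_Ici]
    exact deriv_profE_antitone hn he

/-- The profile through its derivative: the area of the sphere of mean curvature `h`. -/
theorem profE_eq_rpow (hn : 2 ≤ n) (he : 0 ≤ e) {V : ℝ} (hV : 0 < V) :
    profE n e V = n * omega n * (((n : ℝ) - 1) ^ 2 /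
      (deriv (profE n e) V ^ 2 - e * ((n : ℝ) - 1) ^ 2)) ^ (((n : ℝ) - 1) / 2) := by
  rw [deriv_profE hn he hV]
  exact areaM_eq_rpow hn he (radM_pos hn he hV)

theorem volM_flat (hn : 1 ≤ n) (r : ℝ) : volM n 0 r = omega n * r ^ n := by
  have hn0 : (n : ℝ) ≠ 0 := by exact_mod_cast (by omega : n ≠ 0)
  simp only [volM, areaM, sn_flat, intervalIntegral.integral_const_mul]
  rw [integral_pow, show n - 1 + 1 = n by omega, Nat.cast_sub hn, zero_pow (by omega)]
  push_cast
  simp only [sub_zero, sub_add_cancel]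
  field_simp

/-- For `e = 0` this is the Euclidean profile. -/
theorem profE_flat (hn : 2 ≤ n) {V : ℝ} (hV : 0 ≤ V) :
    profE n 0 V = profile n V := by
  rcases eq_or_lt_of_le hV with rfl | hV'
  · rw [profE_zero hn, Core.Mini.profile_zero hn]
  · obtain ⟨r, hr, rfl⟩ := exists_volM_eq (by omega : 1 ≤ n) le_rfl hV
    have hr' : 0 < r := hr.lt_of_ne fun h => hV'.ne (by rw [← h, volM_zero])
    rw [profE_volM hn le_rfl hr, volM_flat (by omega),
      (Core.Mini.profile_radius (by omega : 1 ≤ n) hr').1, areaM, sn_flat]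

end

end Vale.Agent.P219.CH.Full
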