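import Vale.Agent.P219.CH.Full.Defs

/-!
P219 full Q1: the area of the unit sphere as an integral over stereographic coordinates.
-/

namespace Vale.Agent.P219.CH.Full

open MeasureTheory Set Real
open scoped RealInnerProductSpace

noncomputable section

theorem omega_eq {n : ℕ} (hn : 1 ≤ n) :
    omega n = √π ^ n / Gamma ((n : ℝ) / 2 + 1) := by
  have : Nonempty (Fin n) := ⟨⟨0, hn⟩⟩
  rw [omega, EuclideanSpace.volume_ball]
  simp
  exact div_nonneg (by positivity) (Gamma_pos_of_pos (by positivity)).le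

theorem omega_add_two {n : ℕ} (hn : 1 ≤ n) :
    ((n : ℝ) + 2) * omega (n + 2) = 2 * π * omega n := by
  rw [omega_eq hn, omega_eq (by omega : 1 ≤ n + 2)]
  have hne : (n : ℝ) / 2 + 1 ≠ 0 := by positivity
  rw [show ((n + 2 : ℕ) : ℝ) / 2 + 1 = ((n : ℝ) / 2 + 1) + 1 by push_cast; ring,
    Gamma_add_one hne, pow_add, Real.sq_sqrt pi_pos.le]
  have := (Gamma_pos_of_pos (show (0 : ℝ) < (n : ℝ) / 2 + 1 by positivity)).ne'
  field_simp

theorem omega_one : omega 1 = 2 := by
  rw [omega_eq le_rfl, show ((1 : ℕ) : ℝ) / 2 + 1 = 1 / 2 + 1 by norm_num,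
    Gamma_add_one (by norm_num), Gamma_one_half_eq]
  have := (Real.sqrt_pos.2 pi_pos).ne'
  field_simp

theorem omega_two : omega 2 = π := by
  rw [omega_eq (by norm_num), show ((2 : ℕ) : ℝ) / 2 + 1 = 1 + 1 by norm_num,
    Gamma_add_one one_ne_zero, Gamma_one, Real.sq_sqrt pi_pos.le]
  simp

theorem omega_three : omega 3 = 4 * π / 3 := by
  have h := omega_add_two (n := 1) le_rfl
  rw [omega_one] at h
  norm_num at h
  linarith

/-- The polar angle version: `m ω_m ∫₀^π sin^(m-1) = (m + 1) ω_(m+1)`. -/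
theorem sphere_recursion : ∀ k : ℕ,
    ((k : ℝ) + 1) * omega (k + 1) * ∫ θ in (0 : ℝ)..π, sin θ ^ k =
      ((k : ℝ) + 2) * omega (k + 2)
  | 0 => by
    simp [omega_one, omega_two]
  | 1 => by
    norm_num [omega_two, omega_three]
    ring
  | k + 2 => by
    have ih := sphere_recursion k
    rw [integral_sin_pow]
    simp only [sin_zero, sin_pi, ne_eq, add_eq_zero, one_ne_zero, and_false, not_false_eq_true,
      zero_pow, zero_mul, sub_self, zero_div, zero_add]
    have h1 : ((k : ℝ) + 3) * omega (k + 3) = 2 * π * omega (k + 1) := by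
      have h := omega_add_two (n := k + 1) (by omega)
      push_cast at h
      linarith
    have h2 : ((k : ℝ) + 4) * omega (k + 4) = 2 * π * omega (k + 2) := by
      have h := omega_add_two (n := k + 2) (by omega)
      push_cast at h
      linarith
    push_cast
    rw [show k + 2 + 1 = k + 3 by omega, show k + 2 + 2 = k + 4 by omega,
      show ((k : ℝ) + 2 + 1) = (k : ℝ) + 3 by ring, show ((k : ℝ) + 2 + 2) = (k : ℝ) + 4 by ring,
      h1, h2]
    field_simp
    linear_combination ih

/-- The substitution `r = tan (θ / 2)`. -/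
theorem integral_radial (k : ℕ) :
    ∫ r in Ioi (0 : ℝ), r ^ k * (2 / (1 + r ^ 2)) ^ (k + 1) =
      ∫ θ in (0 : ℝ)..π, sin θ ^ k := by
  have himg : (fun r => 2 * arctan r) '' Ioi 0 = Ioo 0 π := by
    ext t
    constructor
    · rintro ⟨r, hr, rfl⟩
      have h1 := arctan_lt_pi_div_two r
      have h2 : 0 < arctan r := by simpa using arctan_strictMono (show (0 : ℝ) < r from hr)
      exact ⟨by positivity, by linarith⟩
    · rintro ⟨h1, h2⟩
      refine ⟨tan (t / 2), tan_pos_of_pos_of_lt_pi_div_two (by linarith) (by linarith), ?_⟩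
      simp only
      rw [arctan_tan (by linarith) (by linarith)]
      ring
  have hinj : InjOn (fun r => 2 * arctan r) (Ioi 0) := fun a _ b _ h =>
    arctan_strictMono.injective (mul_left_cancel₀ two_ne_zero h)
  rw [intervalIntegral.integral_of_le pi_pos.le, integral_Ioc_eq_integral_Ioo, ← himg,
    integral_image_eq_integral_abs_deriv_smul measurableSet_Ioi
      (fun r _ => ((hasDerivAt_arctan r).const_mul 2).hasDerivWithinAt) hinj]
  refine setIntegral_congr_fun measurableSet_Ioi fun r _ => ?_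
  have hp : 0 < 1 + r ^ 2 := by positivity
  simp only [smul_eq_mul]
  rw [sin_two_mul, sin_arctan, cos_arctan, abs_of_pos (by positivity)]
  rw [show 2 * (r / √(1 + r ^ 2)) * (1 / √(1 + r ^ 2)) = r * (2 / (1 + r ^ 2)) by
    rw [show 2 * (r / √(1 + r ^ 2)) * (1 / √(1 + r ^ 2)) =
      r * (2 / (√(1 + r ^ 2) * √(1 + r ^ 2))) by ring, Real.mul_self_sqrt hp.le]]
  rw [mul_pow, pow_succ]
  ring

/-- The stereographic Jacobian integrates to the area of the unit sphere. -/
theorem integral_stereographic {m : ℕ} (hm : 1 ≤ m) :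
    ∫ x : E m, (2 / (1 + ‖x‖ ^ 2)) ^ m = ((m : ℝ) + 1) * omega (m + 1) := by
  obtain ⟨k, rfl⟩ : ∃ k, m = k + 1 := ⟨m - 1, by omega⟩
  rw [integral_fun_norm_addHaar volume fun r : ℝ => (2 / (1 + r ^ 2)) ^ (k + 1)]
  simp only [finrank_euclideanSpace, Fintype.card_fin, Nat.add_sub_cancel, smul_eq_mul,
    nsmul_eq_mul, measureReal_def]
  rw [integral_radial, ← omega]
  push_cast
  rw [show k + 1 + 1 = k + 2 by omega, show (k : ℝ) + 1 + 1 = (k : ℝ) + 2 by ring,
    ← sphere_recursion k]
  ring

theorem integral_stereographic_sphA {m : ℕ} (hm : 1 ≤ m) :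
    ∫ x : E m, (2 / (1 + ‖x‖ ^ 2)) ^ m = sphA (m + 1) := by
  rw [integral_stereographic hm, sphA]
  push_cast
  rfl

theorem integrable_stereographic {m : ℕ} (hm : 1 ≤ m) :
    Integrable fun x : E m => (2 / (1 + ‖x‖ ^ 2)) ^ m := by
  by_contra h
  have hw : 0 < omega (m + 1) :=
    ENNReal.toReal_pos (Metric.measure_ball_pos volume (0 : E (m + 1)) one_pos).ne'
      measure_ball_lt_top.ne
  have h0 := integral_stereographic hm
  rw [integral_undef h] at h0
  have : 0 < ((m : ℝ) + 1) * omega (m + 1) := by positivity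
  linarith

theorem lintegral_stereographic {m : ℕ} (hm : 1 ≤ m) :
    ∫⁻ x : E m, ENNReal.ofReal ((2 / (1 + ‖x‖ ^ 2)) ^ m) =
      ENNReal.ofReal (((m : ℝ) + 1) * omega (m + 1)) := by
  rw [← ofReal_integral_eq_lintegral_ofReal (integrable_stereographic hm)
    (ae_of_all _ fun x => by positivity), integral_stereographic hm]

end

end Vale.Agent.P219.CH.Full
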